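import Crest.Agent.X212.Win22.Ob

-- ▼ part X212/Win22/Pt
section

/-!
Classes of sequences of cycles (caps) and functionals of sequences of cocycles.
-/

set_option autoImplicit false
set_option linter.unusedSectionVars false

open Module Function Filter

noncomputable section

namespace Crest.Agent.X212.Win22

open Bor5 (K)
open Cx WG

theorem exists_ulim (c : ℕ → K) : ∃ a, ∀ᶠ m in uf, c m = a :=
  Ultrafilter.eventually_exists_iff.1 (Eventually.of_forall fun m => ⟨c m, rfl⟩)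

/-- the limit of a sequence of scalars -/
def ulim (c : ℕ → K) : K := (exists_ulim c).choose

theorem ulim_spec (c : ℕ → K) : ∀ᶠ m in uf, c m = ulim c := (exists_ulim c).choose_spec

theorem ulim_eq {c : ℕ → K} {a : K} (h : ∀ᶠ m in uf, c m = a) : ulim c = a := by
  obtain ⟨m, h1, h2⟩ := ((ulim_spec c).and h).exists
  exact h1.symm.trans h2

namespace WC

variable {L L' : Type} {X : WC L} {Y : WC L'}

/-- a bounded sequence of cycles -/
structure Cyc (X : WC L) where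
  x : ∀ m, X.H m
  bd : ∃ a, ∀ᶠ m in atTop, x m ∈ X.le m a
  cy : ∀ᶠ m in atTop, X.d m (x m) = 0

namespace Cyc

variable (ξ : X.Cyc)

theorem exists_rp : ∃ y, Rp ξ.x y := ξ.bd.elim fun _ h => exists_of_le (ev_uf h)

/-- the limit chain -/
def ch : X.LH := ξ.exists_rp.choose

theorem rp : Rp ξ.x ξ.ch := ξ.exists_rp.choose_spec

theorem d_ch : X.cx.d ξ.ch = 0 := (X.dM.rp ξ.rp).ext Rp.zero (ev_uf ξ.cy)

/-- the class -/
def cls : X.Hm := X.cx.cls ξ.ch ξ.d_ch

theorem cls_mem {s : L} {a : ℚ} (h : ∀ᶠ m in atTop, ξ.x m ∈ (X.g m).W (s, a)) :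
    ξ.cls ∈ X.gr s a := cls_mem_img _ (ξ.rp.mem_W.2 (ev_uf h))

theorem cls_eq_zero (h : ∀ᶠ m in atTop, ξ.x m = 0) : ξ.cls = 0 :=
  (X.cx.cls_congr _ (map_zero _) (ξ.rp.ext Rp.zero (ev_uf h))).trans (X.cx.cls_zero _)

/-- homologous sequences -/
theorem cls_eq (ξ ξ' : X.Cyc) (u : ∀ m, X.H m) {a : ℚ}
    (h : ∀ᶠ m in atTop, u m ∈ X.le m a ∧ X.d m (u m) = ξ.x m + ξ'.x m) : ξ.cls = ξ'.cls := by
  obtain ⟨y, r⟩ := exists_of_le (ev_uf (h.mono fun _ h => h.1))
  refine (X.cx.cls_eq_iff _ _).2 ⟨y, ?_⟩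
  rw [sub_eq_add2 K]
  exact (X.dM.rp r).ext (ξ.rp.add ξ'.rp) (ev_uf (h.mono fun _ h => h.2))

/-- image under a chain map -/
def map (f : WCh X Y) : Y.Cyc where
  x m := f.φ m (ξ.x m)
  bd := by
    obtain ⟨a, ha⟩ := ξ.bd
    exact (f.bd a).imp fun b hb => (hb.and ha).mono fun m h => h.1 _ h.2
  cy := by
    obtain ⟨a, ha⟩ := ξ.bd
    exact ((f.ch a).and (ha.and ξ.cy)).mono fun m h => by rw [h.1 _ h.2.1, h.2.2, map_zero]

theorem hm_cls (f : WCh X Y) : f.hm ξ.cls = (ξ.map f).cls :=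
  Y.cx.cls_congr (f.isCh.cyc ξ.d_ch) _
    ((f.rp ξ.rp).ext (ξ.map f).rp (Eventually.of_forall fun _ => rfl))

/-- gluing a cap to a cobordism -/
theorem hm_cls_eq (f : WCh X Y) (η : Y.Cyc) (u : ∀ m, Y.H m) {a : ℚ}
    (h : ∀ᶠ m in atTop, u m ∈ Y.le m a ∧ Y.d m (u m) = f.φ m (ξ.x m) + η.x m) :
    f.hm ξ.cls = η.cls := (ξ.hm_cls f).trans ((ξ.map f).cls_eq η u h)

end Cyc

/-- a sequence of cocycles -/
structure Coc (X : WC L) where
  ψ : ∀ m, X.H m →ₗ[K] K
  co : X.Loc fun m y => ψ m (X.d m y) = 0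

namespace Coc

variable (c : X.Coc)

/-- the limit cochain -/
def lim : X.LH →ₗ[K] K :=
  { toFun := fun y => ulim fun m => c.ψ m ((WG.exists_rp y).choose m)
    map_add' := fun y z => by
      obtain ⟨-, r, -⟩ := (WG.exists_rp y).choose_spec
      obtain ⟨-, r', -⟩ := (WG.exists_rp z).choose_spec
      obtain ⟨-, r'', -⟩ := (WG.exists_rp (y + z)).choose_spec
      refine ulim_eq (((r''.ev (r.add r')).and ((ulim_spec fun m =>
        c.ψ m ((WG.exists_rp y).choose m)).and (ulim_spec fun m =>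
          c.ψ m ((WG.exists_rp z).choose m)))).mono fun m h => ?_)
      rw [h.1, map_add, h.2.1, h.2.2]
    map_smul' := fun a y => by
      rcases k_cases a with rfl | rfl
      · obtain ⟨-, r, -⟩ := (WG.exists_rp ((0 : K) • y)).choose_spec
        have e : (0 : K) • y = 0 := zero_smul _ _
        refine (ulim_eq ((r.ev (e ▸ Rp.zero)).mono fun m h => ?_)).trans (zero_smul _ _).symm
        rw [h, map_zero]
      · rw [one_smul]
        exact (one_smul _ _).symm }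

theorem lim_rp {x : ∀ m, X.H m} {y : X.LH} (r : Rp x y) : ∀ᶠ m in uf, c.ψ m (x m) = c.lim y := by
  obtain ⟨-, r', -⟩ := (WG.exists_rp y).choose_spec
  exact ((r.ev r').and (ulim_spec fun m => c.ψ m ((WG.exists_rp y).choose m))).mono fun m h => by
    rw [h.1, h.2]
    rfl

/-- the functional on homology -/
def fn : X.Hm →ₗ[K] K :=
  X.cx.B.liftQ (c.lim ∘ₗ X.cx.Z.subtype) (by
    rintro ⟨z, hz⟩ ⟨y, hy⟩
    obtain rfl : X.dM.lim y = z := hy
    obtain ⟨x, -, r, -⟩ := WG.exists_rp y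
    obtain ⟨m, h1, h2⟩ := ((c.lim_rp (X.dM.rp r)).and (r.loc c.co)).exists
    exact h1.symm.trans h2)

theorem fn_cls (ξ : X.Cyc) : ∀ᶠ m in uf, c.ψ m (ξ.x m) = c.fn ξ.cls := c.lim_rp ξ.rp

end Coc

/-- a pairing formula passes to the limit -/
theorem sum_fn {α : Type*} (s : Finset α) (c : α → X.Coc) (ξ : α → X.Cyc) {n : K}
    (h : ∀ᶠ m in atTop, ∑ i ∈ s, (c i).ψ m ((ξ i).x m) = n) :
    ∑ i ∈ s, (c i).fn (ξ i).cls = n := by
  obtain ⟨m, h1, h2⟩ := ((ev_uf h).and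
    ((eventually_all_finset s).2 fun i _ => (c i).fn_cls (ξ i))).exists
  rw [← h1]
  exact Finset.sum_congr rfl fun i hi => (h2 i hi).symm

theorem exists_cls_ne {α : Type*} (s : Finset α) (c : α → X.Coc) (ξ : α → X.Cyc)
    (h : ∀ᶠ m in atTop, ∑ i ∈ s, (c i).ψ m ((ξ i).x m) = 1) : ∃ i ∈ s, (ξ i).cls ≠ 0 := by
  by_contra hn
  have h0 : ∑ i ∈ s, (c i).fn (ξ i).cls = 0 := Finset.sum_eq_zero fun i hi => by
    rw [show (ξ i).cls = 0 from by_contra fun e => hn ⟨i, hi, e⟩, map_zero]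
  exact zero_ne_one (h0.symm.trans (sum_fn s c ξ h))

end WC

end Crest.Agent.X212.Win22
end
end

-- ▼ part X212/Flo2/Cs

/-!
# Row 212, layer AN-S (helper2): count systems

`Sk` : the combinatorial skeleton of a world (ends, families of pieces with a class, facets, necks,
marks).  `Cs S` : what the analysis delivers, matrices over `F₂` at every level `m`.
The empty end `one` makes caps and closed manifolds special cases.
-/

set_option autoImplicit false
set_option linter.unusedSectionVars false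

open Module Function Filter

noncomputable section

universe u

namespace Crest.Agent.X212.Flo2

open Win22
open Bor5 (K)

/-- the skeleton -/
structure Sk : Type (u + 1) where
  /-- ends, and their classes -/
  E : Type u
  L : E → Type
  one : E
  sub : ∀ c c' : L one, c = c'
  /-- families with one incoming and one outgoing end -/
  F : E → E → Type u
  /-- pieces with one incoming and two outgoing ends -/
  F3 : E → E → E → Type u
  s : ∀ {a b}, F a b → L a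
  t : ∀ {a b}, F a b → L b
  s3 : ∀ {a b x}, F3 a b x → L a
  t3 : ∀ {a b x}, F3 a b x → L b
  u3 : ∀ {a b x}, F3 a b x → L x
  /-- facets -/
  fc : ∀ {a b}, F a b → List (F a b)
  /-- necks that separate the two ends -/
  nk : ∀ {a b}, F a b → List (Σ x, F a x × F x b)
  /-- necks that cut off a cap, with all lifts -/
  C : ∀ {a b}, F a b → Type
  cp : ∀ {a b} (σ : F a b), C σ → Σ x, F3 a b x × F x one
  /-- underlying families (without class), test forms, labels -/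
  B : Type u
  base : ∀ {a b}, F a b → B
  T : B → Type
  pr : ∀ {a b} (σ : F a b), T (base σ) → ℝ
  /-- the topological degree shift, where it is known -/
  tp : ∀ {a b}, F a b → ℚ → Prop
  /-- marks on ends: rational homology sphere, positive scalar curvature, the sphere, at most one
  generator in each degree, no generator -/
  qhs : E → Prop
  psc : E → Prop
  sph : E → Prop
  thin : E → Prop
  dead : E → Prop
  /-- marks on families -/
  idn : ∀ {a}, F a a → Prop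
  hi1 : ∀ {a b}, F a b → Prop
  hi0 : ∀ {a b}, F a b → Prop
  al1 : ∀ {a b}, F a b → Prop
  ex1 : ∀ {a b}, F a b → Prop
  al0 : ∀ {a b}, F a b → Prop

/-- the label of `σ` at a test form of its base -/
def Sk.prB (S : Sk) {a b : S.E} (σ : S.F a b) {β : S.B} (h : S.base σ = β) (e : S.T β) : ℝ :=
  S.pr σ (h ▸ e)

open Classical in
/-- the counts -/
structure Cs (S : Sk.{u}) : Type (max u 1) where
  A : ∀ e, Gen (S.L e)
  d : ∀ e m, (A e).ι m → (A e).ι m → K
  hom : ∀ e m i k, d e m i k ≠ 0 → (A e).lab m k = sh ((A e).lab m i)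
  dd : ∀ e r, ∀ᶠ m in atTop, ∀ i, ((A e).lab m i).2 ≤ r → ∀ k, ∑ j, d e m i j * d e m j k = 0
  z : ∀ {a b} (_ : S.F a b) m, (A a).ι m → (A b).ι m → K
  z3 : ∀ {a b x} (_ : S.F3 a b x) m, (A a).ι m → (A b).ι m → (A x).ι m → K
  dg : ∀ {a b}, S.F a b → ℚ
  dg3 : ∀ {a b x}, S.F3 a b x → ℚ
  hz : ∀ {a b} (σ : S.F a b) m i k, z σ m i k ≠ 0 → ((A a).lab m i).1 = S.s σ ∧
    (A b).lab m k = (S.t σ, ((A a).lab m i).2 + dg σ)
  hz3 : ∀ {a b x} (σ : S.F3 a b x) m i k j, z3 σ m i k j ≠ 0 → ((A a).lab m i).1 = S.s3 σ ∧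
    ((A b).lab m k).1 = S.t3 σ ∧ ((A x).lab m j).1 = S.u3 σ ∧
      ((A b).lab m k).2 + ((A x).lab m j).2 = ((A a).lab m i).2 + dg3 σ
  dg_fc : ∀ {a b} (σ : S.F a b), ∀ τ ∈ S.fc σ, dg τ + 1 = dg σ
  dg_nk : ∀ {a b} (σ : S.F a b), ∀ p ∈ S.nk σ, dg p.2.1 + dg p.2.2 + 1 = dg σ
  dg_cp : ∀ {a b} (σ : S.F a b) c, ¬S.dead (S.cp σ c).1 →
    dg3 (S.cp σ c).2.1 + dg (S.cp σ c).2.2 + 1 = dg σ
  dg_tp : ∀ {a b} (σ : S.F a b) r, S.tp σ r → dg σ = r
  /-- every level sees finitely many families -/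
  wfin : ∀ a b m, {σ : S.F a b | z σ m ≠ 0}.Finite
  /-- the empty end -/
  pt : ∀ m, (A S.one).ι m
  pt_eq : ∀ m i, i = pt m
  pt_deg : ∀ m, ((A S.one).lab m (pt m)).2 = 0
  /-- **the master equation** -/
  mas : ∀ {a b} (σ : S.F a b) r, ∃ D : Finset (S.C σ), ∀ᶠ m in atTop, ∀ i,
    ((A a).lab m i).2 ≤ r → ∀ k, (∀ c ∉ D, ∀ j, z3 (S.cp σ c).2.1 m i k j = 0) ∧
      ∑ j, d a m i j * z σ m j k + ∑ j, z σ m i j * d b m j k =
        ((S.fc σ).map fun τ => z τ m i k).sum +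
        ((S.nk σ).map fun p => ∑ j, z p.2.1 m i j * z p.2.2 m j k).sum +
        ∑ c ∈ D, ∑ j, z3 (S.cp σ c).2.1 m i k j * z (S.cp σ c).2.2 m j (pt m)
  /-- labels of living families are bounded -/
  bnd : ∀ a b β (e : S.T β) (ρ : ℚ), ∃ c : ℝ, ∀ r, ∀ᶠ m in atTop, ∀ (σ : S.F a b)
    (h : S.base σ = β) i k, -ρ ≤ dg σ → ((A a).lab m i).2 ≤ r → z σ m i k ≠ 0 → |S.prB σ h e| ≤ c
  /-- towers in high degrees -/
  N : S.E → ℕ
  ev : ∀ e, S.qhs e → ∀ s (k : ℕ), N e ≤ k → Even k → ∀ᶠ m in atTop,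
    ∃! i, (A e).lab m i = (s, (A e).w s + k)
  od : ∀ e, S.qhs e → ∀ s (k : ℕ), N e ≤ k → Odd k → ∀ᶠ m in atTop,
    ∀ i, (A e).lab m i ≠ (s, (A e).w s + k)
  psc : ∀ e, S.psc e → N e = 0
  sph : ∀ e, S.sph e → ∀ s, (A e).w s = 0
  thin : ∀ e, S.thin e → ∀ m i j, ((A e).lab m i).2 = ((A e).lab m j).2 → i = j
  dead : ∀ e, S.dead e → ∀ m, IsEmpty ((A e).ι m)
  idn : ∀ {a} (σ : S.F a a), S.idn σ → ∀ r, ∀ᶠ m in atTop, ∀ i, ((A a).lab m i).2 ≤ r → ∀ k,
    z σ m i k = if i = k ∧ ((A a).lab m i).1 = S.s σ then 1 else 0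
  hi1 : ∀ {a b} (σ : S.F a b), S.hi1 σ → ∃ n : ℚ, ∀ x, n ≤ x → ∀ᶠ m in atTop, ∀ i,
    (A a).lab m i = (S.s σ, x) → ∃ k, z σ m i k ≠ 0
  hi0 : ∀ {a b} (σ : S.F a b), S.hi0 σ → ∃ n : ℚ, ∀ x, n ≤ x → ∀ᶠ m in atTop, ∀ i,
    (A a).lab m i = (S.s σ, x) → ∀ k, z σ m i k = 0
  al1 : ∀ {a b} (σ : S.F a b), S.al1 σ → ∀ x, ∀ᶠ m in atTop, ∀ i k,
    (A a).lab m i = (S.s σ, x) → (A b).lab m k = (S.t σ, x + dg σ) → z σ m i k = 1
  ex1 : ∀ {a b} (σ : S.F a b), S.ex1 σ → ∀ x, ∀ᶠ m in atTop, ∀ i,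
    (A a).lab m i = (S.s σ, x) → ∃ k, z σ m i k ≠ 0
  al0 : ∀ {a b} (σ : S.F a b), S.al0 σ → ∀ r, ∀ᶠ m in atTop, ∀ i, ((A a).lab m i).2 ≤ r →
    ∀ k, z σ m i k = 0

namespace Sk
variable (S : Sk)

/-- no walls and no facets -/
structure Pt {a b : S.E} (σ : S.F a b) : Prop where
  fc : S.fc σ = []
  nk : S.nk σ = []
  cp : IsEmpty (S.C σ)

/-- prescribed facets and necks, no caps -/
structure Bd {a b : S.E} (σ : S.F a b) (l : List (S.F a b)) (n : List (Σ x, S.F a x × S.F x b)) :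
    Prop where
  fc : (S.fc σ).Perm l
  nk : (S.nk σ).Perm n
  cp : IsEmpty (S.C σ)

/-- a family of classes over one base with finitely many members in every bounded set of labels -/
def Prp {a b : S.E} {I : Type} (f : I → S.F a b) : Prop :=
  ∃ (β : S.B) (h : ∀ i, S.base (f i) = β) (D : Finset (S.T β)),
    ∀ c : ℝ, {i | ∀ e ∈ D, |S.prB (f i) (h i) e| ≤ c}.Finite

end Sk

namespace Cs
variable {S : Sk} (Z : Cs S)

/-- the complex of an end -/
def cx (e : S.E) : WC (S.L e) := (Z.A e).wc (Z.d e) (Z.hom e) (Z.dd e)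

/-- the maps of a family -/
def wm {a b : S.E} (σ : S.F a b) : WM (Z.cx a).toWG (Z.cx b).toWG :=
  Gen.wm (Z.z σ) fun r => ⟨r + Z.dg σ, Eventually.of_forall fun m i k hi h => by
    rw [(Z.hz σ m i k h).2]
    linarith⟩

/-- the chain map of a point -/
def ch {a b : S.E} {σ : S.F a b} (h : S.Pt σ) : WCh (Z.cx a) (Z.cx b) where
  toWM := Z.wm σ
  ch := (Z.A a).loc (fun m => mat (Z.d b m) ∘ₗ mat (Z.z σ m))
    (fun m => mat (Z.z σ m) ∘ₗ mat (Z.d a m)) fun r => by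
      obtain ⟨D, hD⟩ := Z.mas σ r
      refine hD.mono fun m hm i hi => funext fun k => ?_
      have h1 := (hm i hi k).2
      have := h.cp
      rw [h.fc, h.nk, Finset.eq_empty_of_isEmpty D] at h1
      simp only [List.map_nil, List.sum_nil, Finset.sum_empty, add_zero] at h1
      simp only [LinearMap.comp_apply, mat_single, mat_apply]
      exact (CharTwo.add_eq_zero.1 h1).symm

end Cs

end Crest.Agent.X212.Flo2
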